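import Vale.Agent.P272.K.QN.Defs

/-!
# Splitting of the block PW

For a fixed middle index `i`: `x k = N k i k / η k`, `y k = N i k k / η k` (`k ≠ i`),
`y0 = N i i i / η i`, `u k = 1 - cc η s k`.
-/

open Matrix MeasureTheory

set_option linter.all false

noncomputable section

namespace Vale.Agent.P272.K.QN

variable {n : ℕ}

/-- the quadratic form of the middle index `i`; `t = univ.erase i`, `u0 = u i` -/
def Fc {ι : Type*} (t : Finset ι) (u x y : ι → ℝ) (u0 y0 : ℝ) : ℝ :=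
  2 * u0 * (1 - u0) ^ 2 * y0 ^ 2
    + ∑ k ∈ t, u k * (1 - u k) * (x k ^ 2 + y k ^ 2 + 2 * (1 - 2 * u k) * x k * y k)
    + ((∑ k ∈ t, u k * x k + u0 * y0) + (∑ k ∈ t, u k * y k + u0 * y0)) *
        ((1 - 2 * u0) * (∑ k ∈ t, u k * x k + u0 * y0) - (∑ k ∈ t, u k * y k + u0 * y0))
    - 2 * (∑ k ∈ t, u k * (1 - u k) * x k + u0 * (1 - u0) * y0) *
        (∑ k ∈ t, u k * y k + u0 * y0)

/-- **Block CERT** (helper493). -/
def CertBlock (n : ℕ) : Prop :=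
  ∀ (η : Fin n → ℝ) (_ : ∀ k, 0 ≤ η k) (i : Fin n) (x y : Fin n → ℝ) (y0 : ℝ),
    ∃ H : ℝ → ℝ, (∀ s, 0 ≤ s → ContinuousAt H s) ∧ H 0 = 0 ∧ (∀ s, 0 ≤ s → 0 ≤ H s) ∧
      ∀ s, 0 < s → ∃ H' : ℝ, HasDerivAt H H' s ∧
        s * H' ≤ (∏ k, cc η s k) * cc η s i *
          Fc (Finset.univ.erase i) (fun k => 1 - cc η s k) x y (1 - cc η s i) y0

/-- **Block RED** (helper553): the reduction of PW to CERT. -/
def RedBlock (n : ℕ) : Prop := CertBlock n → PWBlock n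

end Vale.Agent.P272.K.QN
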