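import Vale.Agent.P272.K.P1.Square
import Vale.Agent.P272.K.Asm.Twisted

/-!
# Quasi-negative Hermitian metrics: definitions and block statements

`(X, g)` Kähler, `h` a second (semi-positive) Hermitian form. For `s ≥ 0`:
`C = (g + s h)⁻¹`, `B = C g C`, `N_k = ∂_k h - Γ_k h` (the covariant derivative of `h`).
-/

open scoped Manifold ContDiff Topology ComplexConjugate ComplexOrder
open TopologicalSpace (Opens)
open Matrix MeasureTheory
open Vale.Agent.P272.K.P1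

set_option linter.all false

noncomputable section

namespace Vale.Agent.P272.K.QN

variable {n : ℕ}

/-! ### pointwise algebraic expressions -/

/-- contraction of `E_{k l̄}` with `C^{k l̄} C^{i j̄} + C^{k j̄} C^{i l̄}` -/
def cE (C : Matrix (Fin n) (Fin n) ℂ) (E : Fin n → Fin n → Matrix (Fin n) (Fin n) ℂ) : ℂ :=
  ∑ k, ∑ l, (C l k * (C * E k l).trace + (C * E k l * C) l k)

/-- the quadratic form in `N` coming from the derivatives of the weights -/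
def cN (s : ℝ) (C B : Matrix (Fin n) (Fin n) ℂ) (N : Fin n → Matrix (Fin n) (Fin n) ℂ) : ℂ :=
  ∑ k, ∑ l,
    (-(s : ℂ) * ((C * (N l)ᴴ).trace * (C l k * (C * N k).trace + (C * N k * C) l k)
        + (C * (N l)ᴴ * C) l k * (C * N k).trace
        + C l k * (C * (N l)ᴴ * C * N k).trace
        + (C * (N l)ᴴ * C * N k * C) l k
        + (C * N k * C * (N l)ᴴ * C) l k)
      + 2 * (s : ℂ) * (-((C * (N l)ᴴ).trace * (C * N k * B) l k)
        - (C * N k * B * (N l)ᴴ * C) l k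
        + (C * N k).trace * (C * (N l)ᴴ * B) l k
        + (C * (N l)ᴴ * B * N k * C) l k))

/-! ### the vector field -/

/-- `N_k = ∂_k h - Γ_k h` -/
def Nf (g h : Cm n → Matrix (Fin n) (Fin n) ℂ) (z : Cm n) (k : Fin n) :
    Matrix (Fin n) (Fin n) ℂ := C2.DM k h z - Gam g k z * h z

/-- `C = (g + s h)⁻¹` -/
def Cf (s : ℝ) (g h : Cm n → Matrix (Fin n) (Fin n) ℂ) (z : Cm n) :
    Matrix (Fin n) (Fin n) ℂ := (g z + (s : ℂ) • h z)⁻¹

/-- `B = C g C` -/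
def Bf (s : ℝ) (g h : Cm n → Matrix (Fin n) (Fin n) ℂ) (z : Cm n) :
    Matrix (Fin n) (Fin n) ℂ := Cf s g h z * g z * Cf s g h z

/-- the weight `(det g)² det C` -/
def wt (s : ℝ) (g h : Cm n → Matrix (Fin n) (Fin n) ℂ) (z : Cm n) : ℂ :=
  (g z).det ^ 2 * (Cf s g h z).det

/-- the component `V^l` of the vector field (to be contracted with `∂̄_l`) -/
def vf (s : ℝ) (g h : Cm n → Matrix (Fin n) (Fin n) ℂ) (l : Fin n) (z : Cm n) : ℂ :=
  wt s g h z * ∑ k, (Cf s g h z l k * (Cf s g h z * Nf g h z k).trace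
    + (Cf s g h z * Nf g h z k * Cf s g h z) l k
    + 2 * (Cf s g h z * Nf g h z k * Bf s g h z) l k
    - 2 * (Bf s g h z * Nf g h z k * Cf s g h z) l k)

/-- the divergence of `V` -/
def rhs (s : ℝ) (g h : Cm n → Matrix (Fin n) (Fin n) ℂ) (z : Cm n) : ℝ :=
  (wt s g h z * (cE (Cf s g h z) (Ef g h z)
    + 2 * (Cf s g h z * h z * Cf s g h z *
        -cHess (fun y => Real.log (g y).det.re) z).trace
    + cN s (Cf s g h z) (Bf s g h z) (Nf g h z))).re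

/-! ### block Q1: the divergence identity -/

/-- **Block Q1.** -/
def IdentBlock (n : ℕ) : Prop :=
  ∀ (O : Opens (Cm n)) (g h : Cm n → Matrix (Fin n) (Fin n) ℂ) (_ : Met O g)
    (_ : ∀ z ∈ O, ∀ i j, ContDiffAt ℝ ∞ (fun y => h y i j) z)
    (_ : ∀ z ∈ O, (h z).PosSemidef)
    (_ : ∀ z ∈ O, ∀ i j l, dz l (fun y => g y i j) z = dz i (fun y => g y l j) z)
    (s : ℝ) (_ : 0 ≤ s), ∀ z ∈ O, (∑ l, dzb l (vf s g h l) z).re = rhs s g h z

/-! ### block PW: positivity in a diagonal frame -/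

/-- `c_k = 1/(1 + s η_k)` -/
def cc (η : Fin n → ℝ) (s : ℝ) (k : Fin n) : ℝ := (1 + s * η k)⁻¹

/-- **Block PW.** In a frame with `g = 1`, `h = diag η`; `N_k = (N k i j)`. -/
def PWBlock (n : ℕ) : Prop :=
  ∀ (η : Fin n → ℝ) (_ : ∀ k, 0 ≤ η k) (N : Fin n → Matrix (Fin n) (Fin n) ℂ)
    (_ : ∀ k i j, η j = 0 → N k i j = 0) (S : ℝ) (_ : 0 ≤ S),
    0 ≤ ∫ s in (0 : ℝ)..S, (∏ k, cc η s k) *
      (∑ k, ∑ i, ∑ j, cc η s k * cc η s i * (η j)⁻¹ * (‖N k i j + N i k j‖ ^ 2 / 2)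
        + (cN s (Matrix.diagonal fun k => ((cc η s k : ℝ) : ℂ))
            (Matrix.diagonal fun k => (((cc η s k) ^ 2 : ℝ) : ℂ)) N).re)

/-! ### block PT: the pointwise theorem at a point -/

/-- **Block PT.** Data at one point: `h = f fᴴ`, `N_k = M_k fᴴ`, `E_{k l̄} = P_{k l̄} + M_k M_lᴴ`,
`P(ξ,ξ̄,ξ,ξ̄) ≥ κ h(ξ,ξ)²`, `Rc ≥ -g`. -/
def PTBlock (n : ℕ) : Prop :=
  ∀ (p : ℕ) (g : Matrix (Fin n) (Fin n) ℂ) (_ : g.PosDef)
    (f : Matrix (Fin n) (Fin p) ℂ) (M : Fin n → Matrix (Fin n) (Fin p) ℂ)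
    (P : Fin n → Fin n → Matrix (Fin n) (Fin n) ℂ) (Rc : Matrix (Fin n) (Fin n) ℂ)
    (κ : ℝ) (_ : 0 ≤ κ)
    (_ : ∀ ξ : Fin n → ℂ, κ * (herm (f * fᴴ) ξ).re ^ 2 ≤ (P1.quart P ξ ξ ξ ξ).re)
    (_ : (Rc + g).PosSemidef) (S : ℝ) (_ : 0 < S),
    κ / 2 * ((g⁻¹ * (f * fᴴ)).trace.re - n / S) - 2 ≤
      ∫ s in (0 : ℝ)..S, g.det.re * ((g + (s : ℂ) • (f * fᴴ))⁻¹).det.re *
        (cE (g + (s : ℂ) • (f * fᴴ))⁻¹ (fun k l => P k l + M k * (M l)ᴴ)
          + 2 * ((g + (s : ℂ) • (f * fᴴ))⁻¹ * (f * fᴴ) * (g + (s : ℂ) • (f * fᴴ))⁻¹ * Rc).trace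
          + cN s (g + (s : ℂ) • (f * fᴴ))⁻¹
              ((g + (s : ℂ) • (f * fᴴ))⁻¹ * g * (g + (s : ℂ) • (f * fᴴ))⁻¹)
              (fun k => M k * fᴴ)).re

/-! ### semi-positive forms with curvature bound -/

/-- At `z` the form `h` is `f fᴴ` with `∂_k h = L_k fᴴ`, `∂_k ∂̄_l h = P_{k l̄} + L_k L_lᴴ` and
`P(ξ,ξ̄,ξ,ξ̄) ≥ κ h(ξ,ξ)²`: the holomorphic sectional curvature is `≤ -κ`. For a Hermitian metric
`P` is minus the Chern curvature; for a pulled back metric minus the pulled back curvature. -/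
def CurvLe (κ : ℝ) (h : Cm n → Matrix (Fin n) (Fin n) ℂ) (z : Cm n) : Prop :=
  ∃ (p : ℕ) (f : Matrix (Fin n) (Fin p) ℂ) (L : Fin n → Matrix (Fin n) (Fin p) ℂ)
    (P : Fin n → Fin n → Matrix (Fin n) (Fin n) ℂ),
    h z = f * fᴴ ∧ (∀ k, C2.DM k h z = L k * fᴴ) ∧
    (∀ k l, C2.D2 k l h z = P k l + L k * (L l)ᴴ) ∧
    ∀ ξ : Fin n → ℂ, κ * (herm (h z) ξ).re ^ 2 ≤ (P1.quart P ξ ξ ξ ξ).re

section
variable {X : Type*} [TopologicalSpace X] [ChartedSpace (Cm n) X]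

/-- smooth semi-positive Hermitian form on `X` -/
structure IsSemi (h : Chart n X → Cm n → Matrix (Fin n) (Fin n) ℂ) : Prop where
  smooth : ∀ e x, At e x → ∀ i j, ContDiffAt ℝ ∞ (fun z => h e z i j) (e x)
  pos : ∀ e x, At e x → (h e (e x)).PosSemidef
  change : ∀ e e' x, At e x → At e' x →
    h e (e x) = (jacM e e' x).transpose * h e' (e' x) * (jacM e e' x).map (starRingEnd ℂ)

end

/-- **Block GL.** The integrated Schwarz lemma on `X`. -/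
def GLBlock (n : ℕ) (X : Type) [TopologicalSpace X] [ChartedSpace (Cm n) X]
    [IsManifold 𝓘(ℂ, Cm n) ω X] [T2Space X] [CompactSpace X] : Prop :=
  ∀ (g h : Chart n X → Cm n → Matrix (Fin n) (Fin n) ℂ) (_ : IsKahler g) (_ : IsSemi h)
    (_ : ∀ e x, At e x →
      (-cHess (fun z => Real.log (g e z).det.re) (e x) + g e (e x)).PosSemidef)
    (κ : X → ℝ) (_ : Continuous κ) (_ : ∀ x, 0 ≤ κ x)
    (_ : ∀ e x, At e x → CurvLe (κ x) (h e) (e x)),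
    INT.intX (fun e z => κ (e.symm z) * ((g e z)⁻¹ * h e z).trace.re * (g e z).det.re) ≤
      4 * INT.intX (fun e z => (g e z).det.re)

/-- **Block HA** (Hartogs compactness). `X` is connected. -/
def HABlock (n : ℕ) (X : Type) [TopologicalSpace X] [ChartedSpace (Cm n) X]
    [IsManifold 𝓘(ℂ, Cm n) ω X] [T2Space X] [CompactSpace X] [ConnectedSpace X] : Prop :=
  1 ≤ n → ∀ (w : Chart n X → Cm n → Matrix (Fin n) (Fin n) ℂ) (_ : IsHermitian w) (A : ℝ)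
    (e : Chart n X) (_ : e ∈ atlas (Cm n) X) (z₀ : Cm n) (r : ℝ) (_ : 0 < r)
    (_ : Metric.closedBall z₀ r ⊆ e.target),
    ∃ δ : ℝ, 0 < δ ∧ ∀ u : X → ℝ, SmoothFn (n := n) u →
      (∀ e x, At e x → (cHess (fun z => u (e.symm z)) (e x) + (A : ℂ) • w e (e x)).PosSemidef) →
      (∀ x, u x ≤ 0) → (∃ x, u x = 0) →
      δ ≤ ∫ z in Metric.ball z₀ r, Real.exp (u (e.symm z))

/-- **Block VO.** Lower volume bound from GL and HA. -/
def VOBlock (n : ℕ) (X : Type) [TopologicalSpace X] [ChartedSpace (Cm n) X]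
    [IsManifold 𝓘(ℂ, Cm n) ω X] [T2Space X] [CompactSpace X] [ConnectedSpace X] : Prop :=
  1 ≤ n → ∀ (w h : Chart n X → Cm n → Matrix (Fin n) (Fin n) ℂ) (_ : IsKahler w) (_ : IsSemi h)
    (κ : X → ℝ) (_ : Continuous κ) (_ : ∀ x, 0 ≤ κ x)
    (_ : ∀ e x, At e x → CurvLe (κ x) (h e) (e x))
    (_ : ∃ e x, At e x ∧ 0 < κ x ∧ (h e (e x)).PosDef)
    (a : ℝ) (_ : 0 ≤ a) (φ : Chart n X → Cm n → ℝ) (_ : IsCanonicalMetric φ),
    ∃ c : ℝ, 0 < c ∧ ∀ (t : ℝ) (_ : a < t) (_ : t < a + 1) (ψ : Chart n X → Cm n → ℝ)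
      (_ : IsCanonicalMetric ψ)
      (_ : ∀ e x, At e x → (cHess (ψ e) (e x) + (t : ℂ) • w e (e x)).PosDef)
      (_ : ∀ e x, At e x → Real.log (cHess (ψ e) (e x) + (t : ℂ) • w e (e x)).det.re = ψ e (e x)),
      c ≤ INT.intX (fun e z => (cHess (ψ e) z + (t : ℂ) • w e z).det.re)

end Vale.Agent.P272.K.QN
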