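import Vale.Agent.P272.K.Stmt
import Mathlib.Geometry.Manifold.IsManifold.Basic

/-!
# P272, statement for quasi-negative Hermitian metrics
-/

open scoped Manifold ContDiff ComplexOrder
open MeasureTheory

noncomputable section

namespace Vale.Agent.P272.K

section
variable {n : ℕ} {X : Type*} [TopologicalSpace X]

/-- The holomorphic sectional curvature of the Hermitian metric `h` (of its Chern connection) is
quasi-negative: it is nonpositive everywhere, and negative in every nonzero tangent direction at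
some point. -/
def QuasiNegHSC [ChartedSpace (Cm n) X] (h : Chart n X → Cm n → Matrix (Fin n) (Fin n) ℂ) : Prop :=
  (∀ e x, At e x → ∀ ξ : Cm n,
    (∑ i, ∑ j, ∑ k, ∑ l, curv (h e) (e x) i j k l *
      (ξ i * (starRingEnd ℂ) (ξ j) * ξ k * (starRingEnd ℂ) (ξ l))).re ≤ 0) ∧
  ∃ x : X, ∀ e, At e x → ∀ ξ : Cm n, ξ ≠ 0 →
    (∑ i, ∑ j, ∑ k, ∑ l, curv (h e) (e x) i j k l *
      (ξ i * (starRingEnd ℂ) (ξ j) * ξ k * (starRingEnd ℂ) (ξ l))).re < 0

end

/-- **Main statement (X4).** Let `X` be a compact connected complex manifold of dimension `n ≥ 1`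
with a Kähler metric `w` and a Hermitian metric `h` (of any kind) of quasi-negative holomorphic
sectional curvature. If `K_X + a[w]` is nef, `a ≥ 0`, then `(K_X + a[w])^n > 0`. -/
def QuasiNegStatement : Prop :=
  ∀ (n : ℕ) (_ : 1 ≤ n) (X : Type) [TopologicalSpace X] [T2Space X] [CompactSpace X]
    [ConnectedSpace X] [ChartedSpace (Cm n) X] [IsManifold 𝓘(ℂ, Cm n) ω X]
    (w h : Chart n X → Cm n → Matrix (Fin n) (Fin n) ℂ) (_ : IsKahler w) (_ : IsHermitian h)
    (_ : QuasiNegHSC h) (a : ℝ) (_ : 0 ≤ a) (_ : NefCanonical w a) (φ : Chart n X → Cm n → ℝ)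
    (_ : IsCanonicalMetric φ),
    ∃ I : ℝ, 0 < I ∧ IsIntegral (fun e z => (cHess (φ e) z + (a : ℂ) • w e z).det.re) I

end Vale.Agent.P272.K
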